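import Vale.Agent.P225.Control.Range.Units

/-!
P225, control: the diagonal part of the range, for matrices.

A space of real matrices which is invariant under brackets with the traceless part of the left
algebra, and contains the brackets of that part with all kicks, contains everything orthogonal to
the commutant. The proof complexifies and uses the matrix units.
-/

namespace Vale.Agent.P225.Control

open Matrix

noncomputable section

variable {ι : Type*} [Fintype ι] [DecidableEq ι]

theorem trace_cmat (A : Matrix ι ι ℝ) : (cmat A).trace = (A.trace : ℂ) := by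
  simp [cmat, Matrix.trace]

theorem cmat_injective : Function.Injective (cmat : Matrix ι ι ℝ → Matrix ι ι ℂ) :=
  fun A B h => Matrix.ext fun a b => by simpa [cmat] using congrFun₂ h a b

namespace SU2

variable {j : ℕ} (S : SU2 ι j)

/-- The real algebra of the fields. -/
def ralg : Subalgebra ℝ (Matrix ι ι ℝ) := Algebra.adjoin ℝ (Set.range S.E)

theorem cmat_mem_calg {P : Matrix ι ι ℝ} (hP : P ∈ S.ralg) : cmat P ∈ S.calg := by
  induction hP using Algebra.adjoin_induction with
  | mem x hx => obtain ⟨k, rfl⟩ := hx; exact Algebra.subset_adjoin ⟨k, rfl⟩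
  | algebraMap c =>
    rw [Algebra.algebraMap_eq_smul_one, cmat_smul, cmat_one]
    exact S.calg.smul_mem (one_mem _) _
  | add x y _ _ hx hy => rw [cmat_add]; exact add_mem hx hy
  | mul x y _ _ hx hy => rw [cmat_mul]; exact mul_mem hx hy

theorem exists_re_im {Z : Matrix ι ι ℂ} (hZ : Z ∈ S.calg) :
    ∃ P ∈ S.ralg, ∃ Q ∈ S.ralg, Z = cmat P + Complex.I • cmat Q := by
  induction hZ using Algebra.adjoin_induction with
  | mem x hx =>
    obtain ⟨k, rfl⟩ := hx
    exact ⟨S.E k, Algebra.subset_adjoin ⟨k, rfl⟩, 0, zero_mem _, by simp [cE, cmat]⟩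
  | algebraMap c =>
    refine ⟨c.re • 1, S.ralg.smul_mem (one_mem _) _, c.im • 1, S.ralg.smul_mem (one_mem _) _, ?_⟩
    rw [cmat_smul, cmat_smul, cmat_one, smul_smul, ← add_smul, mul_comm Complex.I, Complex.re_add_im,
      Algebra.algebraMap_eq_smul_one]
  | add x y _ _ hx hy =>
    obtain ⟨P, hP, Q, hQ, rfl⟩ := hx
    obtain ⟨P', hP', Q', hQ', rfl⟩ := hy
    exact ⟨P + P', add_mem hP hP', Q + Q', add_mem hQ hQ', by rw [cmat_add, cmat_add, smul_add]; abel⟩
  | mul x y _ _ hx hy =>
    obtain ⟨P, hP, Q, hQ, rfl⟩ := hx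
    obtain ⟨P', hP', Q', hQ', rfl⟩ := hy
    refine ⟨P * P' - Q * Q', sub_mem (mul_mem hP hP') (mul_mem hQ hQ'), P * Q' + Q * P',
      add_mem (mul_mem hP hQ') (mul_mem hQ hP'), ?_⟩
    simp only [cmat_sub, cmat_add, cmat_mul, add_mul, mul_add, smul_mul_assoc, mul_smul_comm,
      smul_smul, Complex.I_mul_I, smul_add]
    match_scalars <;> ring_nf <;> simp [Complex.I_sq]

variable (N : Submodule ℝ (Matrix ι ι ℝ))

/-- The complex matrices annihilating `N` under the trace pairing. -/
def Ann (Y : Matrix ι ι ℂ) : Prop := ∀ A ∈ N, (Y * cmat A).trace = 0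

variable {S N}

theorem Ann.add {Y Z : Matrix ι ι ℂ} (hY : Ann N Y) (hZ : Ann N Z) : Ann N (Y + Z) := fun A hA => by
  rw [add_mul, trace_add, hY A hA, hZ A hA, add_zero]

theorem Ann.smul {Y : Matrix ι ι ℂ} (c : ℂ) (hY : Ann N Y) : Ann N (c • Y) := fun A hA => by
  rw [smul_mul, trace_smul, hY A hA, smul_zero]

theorem ann_zero : Ann N (0 : Matrix ι ι ℂ) := fun A _ => by simp

theorem Ann.neg {Y : Matrix ι ι ℂ} (hY : Ann N Y) : Ann N (-Y) := by
  simpa using hY.smul (-1)

theorem Ann.bracket (hN : ∀ L ∈ S.ralg, L.trace = 0 → ∀ A ∈ N, L * A - A * L ∈ N)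
    {Z Y : Matrix ι ι ℂ} (hZ : Z ∈ S.calg) (ht : Z.trace = 0) (hY : Ann N Y) :
    Ann N (Z * Y - Y * Z) := by
  obtain ⟨P, hP, Q, hQ, rfl⟩ := S.exists_re_im hZ
  rw [trace_add, trace_smul, trace_cmat, trace_cmat, smul_eq_mul] at ht
  have hP0 : P.trace = 0 := by simpa using congrArg Complex.re ht
  have hQ0 : Q.trace = 0 := by simpa using congrArg Complex.im ht
  have key : ∀ R ∈ S.ralg, R.trace = 0 → Ann N (cmat R * Y - Y * cmat R) := by
    intro R hR hR0 A hA
    have h := hY _ (hN R hR hR0 A hA)
    rw [cmat_sub, cmat_mul, cmat_mul, mul_sub, trace_sub, ← mul_assoc, ← mul_assoc] at h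
    rw [sub_mul, trace_sub]
    have e : (cmat R * Y * cmat A).trace = (Y * cmat A * cmat R).trace := by
      rw [mul_assoc, trace_mul_comm]
    rw [e]
    linear_combination -h
  have := (key P hP hP0).add ((key Q hQ hQ0).smul Complex.I)
  convert this using 1
  simp only [add_mul, mul_add, smul_mul_assoc, mul_smul_comm, smul_sub]
  abel

variable (S)

theorem unit_trace {m n : ℕ} (hm : m ≤ j) (hn : n ≤ j) :
    (S.unit m n).trace = if m = n then (S.unit 0 0).trace else 0 := by
  split_ifs with h
  · subst h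
    have h1 := S.unit_mul (m := m) (n := 0) (p := 0) (q := m) (Nat.zero_le j)
    rw [if_pos rfl] at h1
    rw [← h1, trace_mul_comm, S.unit_mul hm, if_pos rfl]
  · have h1 := S.unit_mul (m := m) (n := m) (p := m) (q := n) hm
    rw [if_pos rfl] at h1
    rw [← h1, trace_mul_comm, S.unit_mul hn, if_neg (Ne.symm h), trace_zero]

theorem unit_trace_ne [Nonempty ι] : (S.unit 0 0).trace ≠ 0 := by
  intro h
  have := congrArg Matrix.trace S.sum_unit
  rw [trace_sum, trace_one, Finset.sum_eq_zero fun m hm => by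
    rw [Finset.mem_range] at hm
    rw [S.unit_trace (by omega) (by omega), if_pos rfl, h]] at this
  have hc := Fintype.card_pos (α := ι)
  exact hc.ne' (by exact_mod_cast this.symm)

/-- The coefficient of a matrix at a pair of units. -/
def coord (a b : ℕ) (Y : Matrix ι ι ℂ) : Matrix ι ι ℂ :=
  ∑ p ∈ Finset.range (j + 1), S.unit p a * Y * S.unit b p

theorem unit_mul_coord {m n a b : ℕ} (hn : n ≤ j) (Y : Matrix ι ι ℂ) :
    S.unit m n * S.coord a b Y = S.unit m a * Y * S.unit b n := by
  rw [coord, Finset.mul_sum, Finset.sum_eq_single_of_mem n (Finset.mem_range.2 (by omega))]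
  · rw [← mul_assoc, ← mul_assoc, S.unit_mul hn, if_pos rfl]
  · intro p _ hp
    rw [← mul_assoc, ← mul_assoc, S.unit_mul hn, if_neg (Ne.symm hp), zero_mul, zero_mul]

theorem coord_mul_unit {m n a b : ℕ} (hm : m ≤ j) (Y : Matrix ι ι ℂ) :
    S.coord a b Y * S.unit m n = S.unit m a * Y * S.unit b n := by
  rw [coord, Finset.sum_mul, Finset.sum_eq_single_of_mem m (Finset.mem_range.2 (by omega))]
  · rw [mul_assoc, S.unit_mul hm, if_pos rfl]
  · intro p hp0 hp
    rw [Finset.mem_range] at hp0
    rw [mul_assoc, S.unit_mul (show p ≤ j by omega), if_neg hp, mul_zero]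

/-- Commuting with the left algebra. -/
def Comm (r : Matrix ι ι ℂ) : Prop := ∀ Z ∈ S.calg, Z * r = r * Z

theorem comm_coord {a b : ℕ} (Y : Matrix ι ι ℂ) : S.Comm (S.coord a b Y) := by
  intro Z hZ
  have hZ' := S.calg_le_unitSpan hZ
  clear hZ
  induction hZ' using Submodule.span_induction with
  | mem x hx =>
    obtain ⟨m, hm, n, hn, rfl⟩ := hx
    rw [S.unit_mul_coord hn, S.coord_mul_unit hm]
  | zero => simp
  | add x y _ _ hx hy => rw [add_mul, mul_add, hx, hy]
  | smul c x _ hx => rw [smul_mul_assoc, mul_smul_comm, hx]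

theorem bracket_units {p q s t : ℕ} (hq : q ≤ j) (ht : t ≤ j) :
    S.unit p q * S.unit s t - S.unit s t * S.unit p q =
      (if q = s then S.unit p t else 0) - if t = p then S.unit s q else 0 := by
  rw [S.unit_mul hq, S.unit_mul ht]

variable {S}

/-- One off-diagonal unit spreads to all of them. -/
theorem spread (hN : ∀ L ∈ S.ralg, L.trace = 0 → ∀ A ∈ N, L * A - A * L ∈ N)
    {r : Matrix ι ι ℂ} (hr : S.Comm r) {m n : ℕ} (hm : m ≤ j) (hn : n ≤ j) (hmn : m ≠ n)
    (h : Ann N (S.unit m n * r)) {p q : ℕ} (hp : p ≤ j) (hq : q ≤ j) (hpq : p ≠ q) :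
    Ann N (S.unit p q * r) := by
  have br : ∀ a b s t, a ≤ j → b ≤ j → s ≤ j → t ≤ j → a ≠ b → Ann N (S.unit s t * r) →
      Ann N (((if b = s then S.unit a t else 0) - if t = a then S.unit s b else 0) * r) := by
    intro a b s t ha hb _ ht hab hY
    have := hY.bracket hN (S.unit_mem_calg a b) (by rw [S.unit_trace ha hb, if_neg hab])
    rwa [mul_assoc _ r, ← hr _ (S.unit_mem_calg a b), ← mul_assoc, ← mul_assoc, ← sub_mul,
      S.bracket_units hb ht] at this
  have row : ∀ s t a, s ≤ j → t ≤ j → a ≤ j → s ≠ t → a ≠ t → Ann N (S.unit s t * r) →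
      Ann N (S.unit a t * r) := by
    intro s t a hs ht ha hst hat hY
    by_cases has : a = s
    · rwa [has]
    · simpa [Ne.symm hat] using br a s s t ha hs hs ht has hY
  have col : ∀ s t b, s ≤ j → t ≤ j → b ≤ j → s ≠ t → b ≠ s → Ann N (S.unit s t * r) →
      Ann N (S.unit s b * r) := by
    intro s t b hs ht hb hst hbs hY
    by_cases hbt : b = t
    · rwa [hbt]
    · simpa [hbs] using (br t b s t ht hb hs ht (Ne.symm hbt) hY).neg
  have swap : ∀ s t, s ≤ j → t ≤ j → s ≠ t → Ann N (S.unit s t * r) →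
      Ann N (S.unit t s * r) := by
    intro s t hs ht hst hY
    have h1 := br t s s t ht hs hs ht (Ne.symm hst) hY
    simp only [if_true] at h1
    have h2 := h1.bracket hN (S.unit_mem_calg t s) (by rw [S.unit_trace ht hs, if_neg (Ne.symm hst)])
    have e : S.unit t s * (S.unit t t - S.unit s s) - (S.unit t t - S.unit s s) * S.unit t s =
        (-2 : ℂ) • S.unit t s := by
      rw [mul_sub, sub_mul, S.unit_mul hs, S.unit_mul hs, S.unit_mul ht, S.unit_mul hs]
      simp [hst]
      module
    rw [mul_assoc _ r, ← hr _ (S.unit_mem_calg t s), ← mul_assoc, ← mul_assoc, ← sub_mul, e] at h2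
    have h3 := h2.smul (-1 / 2)
    convert h3 using 1
    rw [smul_mul_assoc, smul_smul]
    norm_num
  by_cases hpn : p = n
  · subst hpn
    exact col p m q hp hm hq (Ne.symm hmn) (Ne.symm hpq) (swap m p hm hp hmn h)
  · exact col p n q hp hn hq hpn (Ne.symm hpq) (row m n p hm hn hp hmn hpn h)

/-- Kicks: `a J E_k + b E_k J` and `∑ E_k J E_k`. -/
def kickM (S : SU2 ι j) (a b : ℝ) (J : Matrix ι ι ℝ) : Option (Fin 3) → Matrix ι ι ℝ
  | some k => a • (J * S.E k) + b • (S.E k * J)
  | none => ∑ k, S.E k * (J * S.E k)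

theorem phi_field (m : Fin 3) :
    ∑ k, S.cE k * S.cE m * S.cE k = ((4 : ℂ) - (j : ℂ) * (j + 2)) • S.cE m := by
  obtain ⟨h01, h12, h20⟩ := S.rel012
  have key : ∀ k, S.cE k * S.cE m * S.cE k =
      S.cE m * (S.cE k * S.cE k) + (S.cE k * S.cE m - S.cE m * S.cE k) * S.cE k := fun k => by
    rw [sub_mul, ← mul_assoc]; abel
  simp only [Fin.sum_univ_three, key]
  have hc := S.cas_complex
  have h10 : S.cE 1 * S.cE 0 - S.cE 0 * S.cE 1 = (2 : ℂ) • S.cE 2 := by
    rw [← neg_sub, h01, neg_smul, neg_neg]
  have h21 : S.cE 2 * S.cE 1 - S.cE 1 * S.cE 2 = (2 : ℂ) • S.cE 0 := by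
    rw [← neg_sub, h12, neg_smul, neg_neg]
  have h02 : S.cE 0 * S.cE 2 - S.cE 2 * S.cE 0 = (2 : ℂ) • S.cE 1 := by
    rw [← neg_sub, h20, neg_smul, neg_neg]
  have e : ∀ A : Matrix ι ι ℂ, A * (S.cE 0 * S.cE 0) + A * (S.cE 1 * S.cE 1) + A * (S.cE 2 * S.cE 2) =
      (-((j : ℂ) * (j + 2))) • A := fun A => by rw [← mul_add, ← mul_add, hc, mul_smul_comm, mul_one]
  fin_cases m
  · simp only [Fin.zero_eta, sub_self, zero_mul, add_zero, h10, h20, smul_mul_assoc]
    linear_combination (norm := module) e (S.cE 0) + (-2 : ℂ) • h12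
  · simp only [Fin.mk_one, sub_self, zero_mul, add_zero, h01, h21, smul_mul_assoc]
    linear_combination (norm := module) e (S.cE 1) + (-2 : ℂ) • h20
  · simp only [show (⟨2, by norm_num⟩ : Fin 3) = 2 from rfl, sub_self, zero_mul, add_zero, h02, h12,
      smul_mul_assoc]
    linear_combination (norm := module) e (S.cE 2) + (-2 : ℂ) • h01

/-- All pairings of an annihilating traceless multiple of a commuting `r` with one `J` vanish. -/
theorem pairing_eq_zero [Nonempty ι] (hj : 1 ≤ j) {a b : ℝ} (hab : a + b ≠ 0) (hb : b ≠ 0)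
    {r : Matrix ι ι ℂ} (hr : S.Comm r) (J : Matrix ι ι ℝ)
    (h : ∀ Z ∈ S.calg, ∀ κ, ((Z - (Z.trace / Fintype.card ι) • (1 : Matrix ι ι ℂ)) * r *
      cmat (S.kickM a b J κ)).trace = 0) :
    ∀ Z ∈ S.calg, (Z * r * cmat J).trace = 0 := by
  set f : Matrix ι ι ℂ →ₗ[ℂ] ℂ :=
    { toFun := fun W => (W * r * cmat J).trace
      map_add' := fun x y => by simp [add_mul, trace_add]
      map_smul' := fun c x => by simp [smul_mul, trace_smul] } with hf
  have hE : ∀ k, S.cE k ∈ S.calg := fun k => Algebra.subset_adjoin ⟨k, rfl⟩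
  have htE : ∀ k, (S.cE k).trace = 0 := fun k => by
    have h1 := trace_transpose (S.E k)
    rw [S.skew, trace_neg] at h1
    rw [cE, trace_cmat, show (S.E k).trace = 0 by linarith, Complex.ofReal_zero]
  have hmix : ∀ Z ∈ S.calg, ∀ k, (a : ℂ) * f (S.cE k * (Z - (Z.trace / Fintype.card ι) • (1 : Matrix ι ι ℂ))) +
      (b : ℂ) * f ((Z - (Z.trace / Fintype.card ι) • (1 : Matrix ι ι ℂ)) * S.cE k) = 0 := by
    intro Z hZ k
    have := h Z hZ (some k)
    simp only [kickM, cmat_add, cmat_smul, cmat_mul, mul_add, mul_smul_comm, trace_add, trace_smul,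
      smul_eq_mul] at this
    rw [← this]
    simp only [hf, LinearMap.coe_mk, AddHom.coe_mk, cE]
    congr 2
    · rw [← mul_assoc _ (cmat J) (cmat (S.E k)), trace_mul_comm _ (cmat (S.E k))]
      simp only [mul_assoc]
    · have := hr _ (hE k)
      simp only [cE] at this
      simp only [mul_assoc]
      rw [← mul_assoc (cmat (S.E k)) r, this, mul_assoc]
  have htan : ∀ Z ∈ S.calg,
      f (∑ k, S.cE k * (Z - (Z.trace / Fintype.card ι) • (1 : Matrix ι ι ℂ)) * S.cE k) = 0 := by
    intro Z hZ
    have := h Z hZ none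
    simp only [kickM, cmat_sum, cmat_mul, Finset.mul_sum, trace_sum] at this
    rw [map_sum, ← this]
    refine Finset.sum_congr rfl fun k _ => ?_
    have hk := hr _ (hE k)
    simp only [hf, LinearMap.coe_mk, AddHom.coe_mk, cE] at hk ⊢
    rw [← mul_assoc _ (cmat (S.E k)) (cmat J * cmat (S.E k)), ← mul_assoc _ (cmat J) (cmat (S.E k)),
      trace_mul_comm _ (cmat (S.E k))]
    simp only [mul_assoc]
    rw [← mul_assoc (cmat (S.E k)) r, hk, mul_assoc]
  have hcas : ∑ k, S.cE k * S.cE k = (-((j : ℂ) * (j + 2))) • (1 : Matrix ι ι ℂ) := by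
    rw [Fin.sum_univ_three, S.cas_complex]
  have hj0 : (j : ℂ) * (j + 2) ≠ 0 := by
    have : 0 < j * (j + 2) := by positivity
    exact_mod_cast this.ne'
  have hab' : (a : ℂ) + b ≠ 0 := by exact_mod_cast hab
  have h1 : f 1 = 0 := by
    have hs : ∑ k, ((a : ℂ) * f (S.cE k * S.cE k) + (b : ℂ) * f (S.cE k * S.cE k)) = 0 :=
      Finset.sum_eq_zero fun k _ => by simpa [htE k] using hmix _ (hE k) k
    rw [Finset.sum_add_distrib, ← Finset.mul_sum, ← Finset.mul_sum, ← map_sum, hcas, map_smul,
      smul_eq_mul] at hs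
    have : ((a : ℂ) + b) * ((j : ℂ) * (j + 2)) * f 1 = 0 := by linear_combination -hs
    simpa [hab', hj0] using this
  have h2 : ∀ k, f (S.cE k) = 0 := by
    intro k
    have := htan _ (hE k)
    simp only [htE k, zero_div, zero_smul, sub_zero] at this
    rw [S.phi_field, map_smul, smul_eq_mul] at this
    have h4 : ((4 : ℂ) - (j : ℂ) * (j + 2)) ≠ 0 := by
      rw [sub_ne_zero]
      intro h4
      have h4' : 4 = j * (j + 2) := by exact_mod_cast h4
      rcases Nat.lt_or_ge j 2 with h5 | h5
      · interval_cases j; omega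
      · nlinarith
    simpa [h4] using this
  have hmix' : ∀ Z ∈ S.calg, ∀ k, (a : ℂ) * f (S.cE k * Z) + (b : ℂ) * f (Z * S.cE k) = 0 := by
    intro Z hZ k
    have := hmix Z hZ k
    simp only [mul_sub, sub_mul, mul_smul_comm, smul_mul_assoc, mul_one, one_mul, map_sub, map_smul,
      h2 k, smul_zero, sub_zero] at this
    exact this
  have htan' : ∀ Z ∈ S.calg, f (∑ k, S.cE k * Z * S.cE k) = 0 := by
    intro Z hZ
    have := htan Z hZ
    simp only [mul_sub, sub_mul, mul_smul_comm, smul_mul_assoc, mul_one, Finset.sum_sub_distrib,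
      ← Finset.smul_sum, hcas, map_sub, map_smul, h1, smul_zero, sub_zero] at this
    exact this
  intro Z hZ
  have hs : ∑ k, ((a : ℂ) * f (S.cE k * (Z * S.cE k)) + (b : ℂ) * f (Z * S.cE k * S.cE k)) = 0 :=
    Finset.sum_eq_zero fun k _ => hmix' _ (mul_mem hZ (hE k)) k
  simp only [← mul_assoc] at hs
  rw [Finset.sum_add_distrib, ← Finset.mul_sum, ← Finset.mul_sum, ← map_sum, htan' Z hZ, mul_zero,
    zero_add, ← map_sum] at hs
  simp only [mul_assoc, ← Finset.mul_sum, hcas, mul_smul_comm, mul_one, map_smul, smul_eq_mul] at hs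
  have hb' : (b : ℂ) ≠ 0 := by exact_mod_cast hb
  have : f Z = 0 := by simpa [hb', hj0, neg_mul, mul_eq_zero] using hs
  simpa [hf] using this

/-- The data of one diagonal block. -/
structure DiagData (S : SU2 ι j) (N : Submodule ℝ (Matrix ι ι ℝ)) where
  one_le : 1 ≤ j
  a : ℝ
  b : ℝ
  hab : a + b ≠ 0
  hb : b ≠ 0
  bracket : ∀ L ∈ S.ralg, L.trace = 0 → ∀ A ∈ N, L * A - A * L ∈ N
  Js : Set (Matrix ι ι ℝ)
  kicks : ∀ J ∈ Js, ∀ κ, ∀ L ∈ S.ralg, L.trace = 0 →
    L * S.kickM a b J κ - S.kickM a b J κ * L ∈ N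
  z : ι → ℝ
  zz_mem : Matrix.vecMulVec z z ∈ Submodule.span ℝ Js
  orbit : ∀ w : ι → ℝ, (∀ P ∈ S.ralg, z ⬝ᵥ (P *ᵥ w) = 0) → w = 0
  cyclic : ∀ R : Matrix ι ι ℝ, (∀ k, R * S.E k = S.E k * R) → R *ᵥ z = 0 → R = 0

/-- An annihilating off-diagonal multiple of a commuting element is zero. -/
theorem comm_eq_zero [Nonempty ι] (D : DiagData S N) {r : Matrix ι ι ℂ} (hr : S.Comm r)
    {m n : ℕ} (hm : m ≤ j) (hn : n ≤ j) (hmn : m ≠ n) (h : Ann N (S.unit m n * r)) : r = 0 := by
  have hoff : ∀ p q, p ≤ j → q ≤ j → p ≠ q → Ann N (S.unit p q * r) := fun p q hp hq hpq =>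
    spread D.bracket hr hm hn hmn h hp hq hpq
  -- pairing with the brackets of the kicks
  have hk : ∀ p q s t, p ≤ j → q ≤ j → s ≤ j → t ≤ j → p ≠ q → s ≠ t → ∀ J ∈ D.Js, ∀ κ,
      ((S.unit p q * S.unit s t - S.unit s t * S.unit p q) * r * cmat (S.kickM D.a D.b J κ)).trace = 0 := by
    intro p q s t hp hq hs ht hpq hst J hJ κ
    obtain ⟨P, hP, Q, hQ, hPQ⟩ := S.exists_re_im (S.unit_mem_calg s t)
    have ht0 := S.unit_trace hs ht
    rw [if_neg hst, hPQ, trace_add, trace_smul, trace_cmat, trace_cmat, smul_eq_mul] at ht0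
    have hP0 : P.trace = 0 := by simpa using congrArg Complex.re ht0
    have hQ0 : Q.trace = 0 := by simpa using congrArg Complex.im ht0
    have one : ∀ R ∈ S.ralg, R.trace = 0 →
        ((S.unit p q * cmat R - cmat R * S.unit p q) * r * cmat (S.kickM D.a D.b J κ)).trace = 0 := by
      intro R hR hR0
      have := hoff p q hp hq hpq _ (D.kicks J hJ κ R hR hR0)
      rw [cmat_sub, cmat_mul, cmat_mul, mul_sub, trace_sub] at this
      rw [sub_mul, sub_mul, trace_sub]
      have e1 : (S.unit p q * cmat R * r * cmat (S.kickM D.a D.b J κ)).trace =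
          (S.unit p q * r * (cmat R * cmat (S.kickM D.a D.b J κ))).trace := by
        have := hr _ (S.cmat_mem_calg hR)
        simp only [mul_assoc]
        rw [← mul_assoc (cmat R) r, this, mul_assoc]
      have e2 : (cmat R * S.unit p q * r * cmat (S.kickM D.a D.b J κ)).trace =
          (S.unit p q * r * (cmat (S.kickM D.a D.b J κ) * cmat R)).trace := by
        simp only [mul_assoc]
        rw [trace_mul_comm (cmat R)]
        simp only [mul_assoc]
      rw [e1, e2, this]
    have h1 := one P hP hP0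
    have h2 := one Q hQ hQ0
    rw [hPQ]
    simp only [mul_add, add_mul, sub_mul, mul_smul_comm, smul_mul_assoc, trace_sub, trace_add,
      trace_smul, smul_eq_mul] at h1 h2 ⊢
    linear_combination h1 + Complex.I * h2
  -- all traceless parts
  have hall : ∀ J ∈ D.Js, ∀ Z ∈ S.calg, ∀ κ,
      ((Z - (Z.trace / Fintype.card ι) • (1 : Matrix ι ι ℂ)) * r * cmat (S.kickM D.a D.b J κ)).trace = 0 := by
    intro J hJ Z hZ κ
    set K := cmat (S.kickM D.a D.b J κ)
    have hd : ∀ p q, p ≤ j → q ≤ j → ((S.unit p p - S.unit q q) * r * K).trace = 0 := by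
      intro p q hp hq
      by_cases hpq : p = q
      · simp [hpq]
      · have := hk p q q p hp hq hq hp hpq (Ne.symm hpq) J hJ κ
        simpa [S.unit_mul hp, S.unit_mul hq] using this
    have ho : ∀ p q, p ≤ j → q ≤ j → p ≠ q → (S.unit p q * r * K).trace = 0 := by
      intro p q hp hq hpq
      have hq2 : ∀ s, s ≤ j → s ≠ p → s ≠ q → (S.unit p q * r * K).trace = 0 := by
        intro s hs hsp hsq
        have := hk p s s q hp hs hs hq (Ne.symm hsp) hsq J hJ κ
        simpa [S.unit_mul hs, S.unit_mul hq, Ne.symm hpq] using this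
      rcases Nat.lt_or_ge 1 j with hj2 | hj2
      · have : ∃ s, s ≤ j ∧ s ≠ p ∧ s ≠ q := by
          by_contra hne
          push Not at hne
          have h0 := hne 0 (by omega)
          have h1 := hne 1 (by omega)
          have h2 := hne 2 (by omega)
          omega
        obtain ⟨s, hs, hsp, hsq⟩ := this
        exact hq2 s hs hsp hsq
      · -- degree one: use `[e_pq, [e_qp, e_pq]]`
        have hA : Ann N ((S.unit q q - S.unit p p) * r) := by
          have := (hoff p q hp hq hpq).bracket D.bracket (S.unit_mem_calg q p)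
            (by rw [S.unit_trace hq hp, if_neg (Ne.symm hpq)])
          rwa [mul_assoc _ r, ← hr _ (S.unit_mem_calg q p), ← mul_assoc, ← mul_assoc, ← sub_mul,
            S.unit_mul hp, S.unit_mul hq, if_pos rfl, if_pos rfl] at this
        obtain ⟨P, hP, Q, hQ, hPQ⟩ := S.exists_re_im (S.unit_mem_calg p q)
        have ht0 := S.unit_trace hp hq
        rw [if_neg hpq, hPQ, trace_add, trace_smul, trace_cmat, trace_cmat, smul_eq_mul] at ht0
        have hP0 : P.trace = 0 := by simpa using congrArg Complex.re ht0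
        have hQ0 : Q.trace = 0 := by simpa using congrArg Complex.im ht0
        have one : ∀ R ∈ S.ralg, R.trace = 0 →
            (((S.unit q q - S.unit p p) * cmat R - cmat R * (S.unit q q - S.unit p p)) * r * K).trace = 0 := by
          intro R hR hR0
          have := hA _ (D.kicks J hJ κ R hR hR0)
          rw [cmat_sub, cmat_mul, cmat_mul, mul_sub, trace_sub] at this
          rw [sub_mul, sub_mul, trace_sub]
          generalize hW : S.unit q q - S.unit p p = W at this ⊢
          have e1 : (W * cmat R * r * K).trace = (W * r * (cmat R * K)).trace := by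
            have := hr _ (S.cmat_mem_calg hR)
            simp only [mul_assoc]
            rw [← mul_assoc (cmat R) r, this, mul_assoc]
          have e2 : (cmat R * W * r * K).trace = (W * r * (K * cmat R)).trace := by
            simp only [mul_assoc]
            rw [trace_mul_comm (cmat R)]
            simp only [mul_assoc]
          rw [e1, e2, this]
        have h1 := one P hP hP0
        have h2 := one Q hQ hQ0
        have e : (S.unit q q - S.unit p p) * S.unit p q - S.unit p q * (S.unit q q - S.unit p p) =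
            (-2 : ℂ) • S.unit p q := by
          rw [sub_mul, mul_sub, S.unit_mul hq, S.unit_mul hp, S.unit_mul hq, S.unit_mul hq]
          simp [hpq, Ne.symm hpq]
          module
        have h3 : (((S.unit q q - S.unit p p) * S.unit p q - S.unit p q * (S.unit q q - S.unit p p)) *
            r * K).trace = 0 := by
          rw [hPQ]
          simp only [mul_add, add_mul, sub_mul, mul_sub, mul_smul_comm, smul_mul_assoc, trace_sub,
            trace_add, trace_smul, smul_eq_mul] at h1 h2 ⊢
          linear_combination h1 + Complex.I * h2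
        rw [e, smul_mul_assoc, smul_mul_assoc, trace_smul, smul_eq_mul] at h3
        simpa using h3
    have hZ' := S.calg_le_unitSpan hZ
    clear hZ
    induction hZ' using Submodule.span_induction with
    | mem x hx =>
      obtain ⟨p, hp, q, hq, rfl⟩ := hx
      rw [S.unit_trace hp hq]
      split_ifs with hpq
      · subst hpq
        have hc : ((S.unit 0 0).trace / Fintype.card ι) = ((j : ℂ) + 1)⁻¹ := by
          have := congrArg Matrix.trace S.sum_unit
          have hd' : ∀ m ∈ Finset.range (j + 1), (S.unit m m).trace = (S.unit 0 0).trace := by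
            intro m hm
            rw [Finset.mem_range] at hm
            exact (S.unit_trace (show m ≤ j by omega) (show m ≤ j by omega)).trans (if_pos rfl)
          rw [trace_sum, trace_one, Finset.sum_congr rfl hd'] at this
          simp only [Finset.sum_const, Finset.card_range, nsmul_eq_mul, Nat.cast_add, Nat.cast_one] at this
          have hcard : (Fintype.card ι : ℂ) ≠ 0 := by exact_mod_cast Fintype.card_ne_zero
          refine eq_inv_of_mul_eq_one_left ?_
          rw [div_mul_eq_mul_div, div_eq_one_iff_eq hcard, mul_comm]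
          exact this
        have e : S.unit p p - ((S.unit 0 0).trace / Fintype.card ι) • (1 : Matrix ι ι ℂ) =
            ((j : ℂ) + 1)⁻¹ • ∑ m ∈ Finset.range (j + 1), (S.unit p p - S.unit m m) := by
          rw [hc, Finset.sum_sub_distrib, S.sum_unit, Finset.sum_const, Finset.card_range, smul_sub,
            ← Nat.cast_smul_eq_nsmul ℂ, smul_smul, Nat.cast_add, Nat.cast_one,
            inv_mul_cancel₀ (Nat.cast_add_one_ne_zero j), one_smul]
        rw [e, smul_mul_assoc, smul_mul_assoc, trace_smul, Finset.sum_mul, Finset.sum_mul, trace_sum,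
          Finset.sum_eq_zero fun m hm => hd p m hp (by rw [Finset.mem_range] at hm; omega), smul_zero]
      · simpa using ho p q hp hq hpq
    | zero => simp
    | add x y _ _ hx hy =>
      rw [trace_add, add_div, add_smul]
      simp only [add_mul, sub_mul, trace_add, trace_sub] at hx hy ⊢
      linear_combination hx + hy
    | smul c x _ hx =>
      rw [trace_smul, smul_eq_mul, mul_div_assoc, mul_smul, ← smul_sub, smul_mul_assoc, smul_mul_assoc,
        trace_smul, hx, smul_zero]
  have hJ0 : ∀ J ∈ D.Js, ∀ Z ∈ S.calg, (Z * r * cmat J).trace = 0 := fun J hJ =>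
    pairing_eq_zero D.one_le D.hab D.hb hr J (hall J hJ)
  have hzz : ∀ Z ∈ S.calg, (Z * r * cmat (Matrix.vecMulVec D.z D.z)).trace = 0 := by
    intro Z hZ
    have hmem := D.zz_mem
    generalize Matrix.vecMulVec D.z D.z = W at hmem ⊢
    induction hmem using Submodule.span_induction with
    | mem x hx => exact hJ0 x hx Z hZ
    | zero => simp [cmat]
    | add x y _ _ hx hy => rw [cmat_add, mul_add, trace_add, hx, hy, add_zero]
    | smul c x _ hx => rw [cmat_smul, mul_smul_comm, trace_smul, hx, smul_zero]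
  -- `r` kills `z`
  have hreim : ∀ i, ∑ k, r i k * (D.z k : ℂ) = 0 := by
    have hre : ∀ φ : ℂ →ₗ[ℝ] ℝ, ∀ i, φ (∑ k, r i k * (D.z k : ℂ)) = 0 := by
      intro φ i
      have := D.orbit (fun i => φ (∑ k, r i k * (D.z k : ℂ))) fun P hP => by
        have h := congrArg φ (hzz _ (S.cmat_mem_calg hP))
        rw [map_zero] at h
        rw [← h]
        have e : (cmat P * r * cmat (Matrix.vecMulVec D.z D.z)).trace =
            ∑ i, ∑ k, (D.z i * P i k) • ∑ l, r k l * (D.z l : ℂ) := by
          simp only [Matrix.trace, Matrix.diag, Matrix.mul_apply, cmat, Matrix.map_apply,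
            Complex.ofRealHom_eq_coe, Matrix.vecMulVec_apply, Complex.ofReal_mul, Finset.sum_mul,
            Finset.smul_sum, Complex.real_smul]
          refine Finset.sum_congr rfl fun i _ => ?_
          rw [Finset.sum_comm]
          refine Finset.sum_congr rfl fun k _ => Finset.sum_congr rfl fun l _ => ?_
          ring
        rw [e, map_sum]
        simp only [map_sum, map_smul, dotProduct, Matrix.mulVec, Finset.mul_sum, smul_eq_mul]
        exact Finset.sum_congr rfl fun i _ => Finset.sum_congr rfl fun k _ =>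
          Finset.sum_congr rfl fun l _ => by ring
      exact congrFun this i
    intro i
    exact Complex.ext (by simpa using hre Complex.reLm i) (by simpa using hre Complex.imLm i)
  -- real and imaginary parts
  have hpart : ∀ φ : ℂ →ₗ[ℝ] ℝ, r.map φ = 0 := by
    intro φ
    refine D.cyclic _ (fun k => ?_) ?_
    · ext p q
      have := congrArg φ (congrFun₂ (hr _ (Algebra.subset_adjoin ⟨k, rfl⟩ : S.cE k ∈ S.calg)) p q)
      simp only [Matrix.mul_apply, cE, cmat, Matrix.map_apply, Complex.ofRealHom_eq_coe, map_sum] at this ⊢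
      refine Eq.trans ?_ (this.symm.trans ?_) <;> refine Finset.sum_congr rfl fun l _ => ?_
      · rw [mul_comm (r p l), ← Complex.real_smul, map_smul, smul_eq_mul, mul_comm]
      · rw [← Complex.real_smul, map_smul, smul_eq_mul]
    · funext i
      have := congrArg φ (hreim i)
      rw [map_zero, map_sum] at this
      rw [Pi.zero_apply, ← this]
      simp only [Matrix.mulVec, dotProduct, Matrix.map_apply]
      exact Finset.sum_congr rfl fun k _ => by
        rw [mul_comm (r i k), ← Complex.real_smul, map_smul, smul_eq_mul, mul_comm]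
  ext p q
  exact Complex.ext (by simpa using congrFun₂ (hpart Complex.reLm) p q)
    (by simpa using congrFun₂ (hpart Complex.imLm) p q)

/-- Everything orthogonal to the commutant is reached. -/
theorem diag_full [Nonempty ι] (D : DiagData S N) (X : Matrix ι ι ℝ)
    (hX : ∀ R : Matrix ι ι ℝ, (∀ k, R * S.E k = S.E k * R) → (Rᵀ * X).trace = 0) : X ∈ N := by
  by_contra hne
  obtain ⟨φ, hφ, hφN⟩ := Submodule.exists_dual_map_eq_bot_of_notMem hne inferInstance
  set Y : Matrix ι ι ℝ := Matrix.of fun i k => φ (Matrix.single k i 1) with hY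
  have hrep : ∀ A, φ A = (Y * A).trace := by
    intro A
    conv_lhs => rw [Matrix.matrix_eq_sum_single A]
    simp only [map_sum, Matrix.trace, Matrix.diag, Matrix.mul_apply, hY, Matrix.of_apply]
    rw [Finset.sum_comm]
    refine Finset.sum_congr rfl fun i _ => Finset.sum_congr rfl fun k _ => ?_
    rw [show Matrix.single k i (A k i) = A k i • Matrix.single k i (1 : ℝ) by simp, map_smul,
      smul_eq_mul, mul_comm]
  have hAnn : Ann N (cmat Y) := by
    intro A hA
    have : φ A = 0 := by
      have := hφN ▸ Submodule.mem_map_of_mem (f := φ) hA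
      simpa using this
    rw [← cmat_mul, trace_cmat, ← hrep, this, Complex.ofReal_zero]
  have hoff : ∀ W, Ann N W → ∀ m n, m ≤ j → n ≤ j → m ≠ n → S.coord n m W = 0 := by
    intro W hW m n hm hn hmn
    refine comm_eq_zero D (S.comm_coord W) hm hn hmn ?_
    have h0 : (S.unit m n).trace = 0 := by rw [S.unit_trace hm hn, if_neg hmn]
    have h1 := (hW.bracket D.bracket (S.unit_mem_calg m n) h0).bracket D.bracket (S.unit_mem_calg m n) h0
    have hsq : S.unit m n * S.unit m n = 0 := by rw [S.unit_mul hn, if_neg (Ne.symm hmn)]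
    rw [S.unit_mul_coord hn]
    convert h1.smul (-1 / 2) using 1
    simp only [mul_sub, sub_mul, ← mul_assoc, hsq, zero_mul]
    simp only [mul_assoc, hsq, mul_zero]
    module
  have hdiag : ∀ n, n ≤ j → S.coord n n (cmat Y) = S.coord 0 0 (cmat Y) := by
    intro n hn
    by_cases h : n = 0
    · rw [h]
    · have h1 := hoff _ (hAnn.bracket D.bracket (S.unit_mem_calg 0 n)
        (by rw [S.unit_trace (Nat.zero_le _) hn, if_neg (Ne.symm h)])) n 0 hn (Nat.zero_le _) h
      rw [← sub_eq_zero, ← h1]
      simp only [coord, mul_sub, sub_mul, Finset.sum_sub_distrib]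
      refine congrArg₂ (· - ·) (Finset.sum_congr rfl fun p _ => ?_) (Finset.sum_congr rfl fun p _ => ?_)
      · rw [← mul_assoc (S.unit p 0), S.unit_mul (Nat.zero_le j), if_pos rfl]
      · simp only [mul_assoc]
        rw [S.unit_mul hn, if_pos rfl]
  have hcomm : S.Comm (cmat Y) := by
    suffices e : cmat Y = S.coord 0 0 (cmat Y) by rw [e]; exact S.comm_coord _
    conv_lhs => rw [← mul_one (cmat Y), ← one_mul (cmat Y)]
    conv_rhs => rw [← one_mul (S.coord 0 0 (cmat Y))]
    rw [← S.sum_unit, Finset.sum_mul, Finset.sum_mul, Finset.sum_mul]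
    refine Finset.sum_congr rfl fun m hm => ?_
    rw [Finset.mem_range] at hm
    rw [Finset.mul_sum, Finset.sum_eq_single_of_mem m (Finset.mem_range.2 hm)]
    · rw [← hdiag m (by omega), S.unit_mul_coord (by omega)]
    · intro n hn hnm
      rw [Finset.mem_range] at hn
      have := S.unit_mul_coord (m := m) (n := n) (a := m) (b := n) (by omega) (cmat Y)
      rw [hoff _ hAnn n m (by omega) (by omega) hnm, mul_zero] at this
      exact this.symm
  refine hφ ?_
  rw [hrep, ← Matrix.transpose_transpose Y]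
  refine hX Yᵀ fun k => ?_
  have hk : S.E k * Y = Y * S.E k := cmat_injective (by
    rw [cmat_mul, cmat_mul]; exact hcomm _ (Algebra.subset_adjoin ⟨k, rfl⟩))
  have := congrArg Matrix.transpose hk
  rw [Matrix.transpose_mul, Matrix.transpose_mul, S.skew, mul_neg, neg_mul, neg_inj] at this
  exact this

end SU2

end

end Vale.Agent.P225.Control
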