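import Vale.Agent.P225.Control.LimitDefs
import Vale.Agent.P225.Control.Range.Diag

/-!
P225, control: the facts about the harmonic data used by the range: multiplications span all maps
as a bimodule over the left fields, and the passage to matrices.
-/

namespace Vale.Agent.P225.Control

open scoped RealInnerProductSpace
open Matrix

noncomputable section

variable (H : Harm)

/-- A rank one map. -/
def rankOne {i j : ℕ} (v : V i) (u : V j) : Op i j := (innerSL ℝ v).smulRight u

theorem rankOne_apply {i j : ℕ} (v : V i) (u : V j) (x : V i) : rankOne v u x = ⟪v, x⟫ • u := rfl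

theorem inner_single {i : ℕ} (v : V i) (a : Fin ((i + 1) ^ 2)) :
    ⟪EuclideanSpace.single a (1 : ℝ), v⟫ = v a := by
  simp [EuclideanSpace.inner_single_left]

theorem zonal_apply (d : ℕ) (a : Fin ((d + 1) ^ 2)) : H.zonal d a = H.Y d a qone := by
  simp [Harm.zonal, Pi.single_apply]

theorem inner_zonal (d : ℕ) (v : V d) : ⟪H.zonal d, v⟫ = ∑ a, v a * H.Y d a qone := by
  simp [PiLp.inner_apply, zonal_apply]

theorem norm_qone : ‖qone‖ = 1 := by simp [qone]

/-- The zonal multiplications add up to the rank one map of the zonal vectors. -/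
theorem sum_mul_zonal (i j : ℕ) :
    ∑ d ∈ Finset.range (i + j + 1), H.mul d (H.zonal d) i j = rankOne (H.zonal i) (H.zonal j) := by
  refine ContinuousLinearMap.ext fun v => ext_inner_left ℝ fun u => ?_
  rw [rankOne_apply, _root_.inner_smul_right, ContinuousLinearMap.sum_apply, inner_sum]
  simp only [H.mul_swap _ _ i v j u, inner_zonal, real_inner_comm _ u]
  have := H.mul_eq j u i v qone norm_qone
  rw [← this]
  ring

theorem mul_eq_zero_of_lt {d i j : ℕ} (h : i + j < d) (w : V d) : H.mul d w i j = 0 := by
  refine ContinuousLinearMap.ext fun v => ext_inner_left ℝ fun u => ?_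
  rw [H.mul_swap, H.mul_band j u i d (Or.inr h)]
  simp

theorem EL_trace (j : ℕ) (k : Fin 3) : opTrace (H.EL j k) = 0 := by
  refine Finset.sum_eq_zero fun i _ => ?_
  have := H.skew_left j k (EuclideanSpace.single i (1 : ℝ)) (EuclideanSpace.single i 1)
  rw [real_inner_comm] at this
  linarith

theorem EL_mem (j : ℕ) (k : Fin 3) : H.EL j k ∈ leftAlg H j := Algebra.subset_adjoin ⟨k, rfl⟩

/-- A subspace invariant under the left fields which contains the zonal vector is everything. -/
theorem cyclic_top {j : ℕ} (U : Submodule ℝ (V j)) (hU : ∀ k, ∀ v ∈ U, H.EL j k v ∈ U)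
    (hz : H.zonal j ∈ U) : U = ⊤ := by
  have hP : ∀ k v, U.starProjection (H.EL j k v) = H.EL j k (U.starProjection v) := by
    intro k v
    refine Submodule.eq_starProjection_of_mem_of_inner_eq_zero (hU k _ (U.starProjection_apply_mem v))
      fun u hu => ?_
    rw [← map_sub, H.skew_left, U.starProjection_inner_eq_zero v _ (hU k u hu), neg_zero]
  have hA : ContinuousLinearMap.id ℝ (V j) - U.starProjection = 0 := by
    refine H.cyclic j _ (fun k v => by simp [hP]) ?_
    change (ContinuousLinearMap.id ℝ (V j) - U.starProjection) (H.zonal j) = 0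
    rw [ContinuousLinearMap.sub_apply, ContinuousLinearMap.id_apply,
      Submodule.starProjection_eq_self_iff.2 hz, sub_self]
  refine eq_top_iff.2 fun v _ => ?_
  have : v - U.starProjection v = 0 := by simpa using congrArg (fun A : Op j j => A v) hA
  rw [sub_eq_zero.1 this]
  exact U.starProjection_apply_mem v

theorem eq_sum_rankOne {i j : ℕ} (A : Op i j) :
    A = ∑ a, rankOne (EuclideanSpace.single a (1 : ℝ)) (A (EuclideanSpace.single a 1)) := by
  ext1 v
  rw [ContinuousLinearMap.sum_apply]
  simp only [rankOne_apply, inner_single, ← map_smul, ← map_sum]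
  congr 1
  ext b
  simp [Pi.single_apply]

/-- A space closed under the left fields on both sides which contains all multiplications is
everything. -/
theorem full_of_bimodule {i j : ℕ} (N : Submodule ℝ (Op i j))
    (hl : ∀ k, ∀ A ∈ N, (H.EL j k).comp A ∈ N) (hr : ∀ k, ∀ A ∈ N, A.comp (H.EL i k) ∈ N)
    (hJ : ∀ d w, d ≤ i + j → H.mul d w i j ∈ N) : N = ⊤ := by
  let inU : Submodule ℝ (V j) :=
    { carrier := {u | rankOne (H.zonal i) u ∈ N}
      add_mem' := fun {x y} hx hy => by
        have : rankOne (H.zonal i) (x + y) = rankOne (H.zonal i) x + rankOne (H.zonal i) y := by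
          ext1 v; simp [rankOne_apply, smul_add]
        simp only [Set.mem_setOf_eq, this] at hx hy ⊢
        exact N.add_mem hx hy
      zero_mem' := by
        have : rankOne (H.zonal i) (0 : V j) = 0 := by ext1 v; simp [rankOne_apply]
        simp only [Set.mem_setOf_eq, this]; exact N.zero_mem
      smul_mem' := fun c {x} hx => by
        have : rankOne (H.zonal i) (c • x) = c • rankOne (H.zonal i) x := by
          ext1 v; simp [rankOne_apply, smul_smul, mul_comm c]
        simp only [Set.mem_setOf_eq, this] at hx ⊢
        exact N.smul_mem c hx }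
  have h1 : inU = ⊤ := by
    refine cyclic_top H inU (fun k u hu => ?_) ?_
    · change rankOne (H.zonal i) (H.EL j k u) ∈ N
      have : rankOne (H.zonal i) (H.EL j k u) = (H.EL j k).comp (rankOne (H.zonal i) u) := by
        ext1 v; simp [rankOne_apply]
      rw [this]; exact hl k _ hu
    · change rankOne (H.zonal i) (H.zonal j) ∈ N
      rw [← sum_mul_zonal]
      exact N.sum_mem fun d hd => hJ d _ (by rw [Finset.mem_range] at hd; omega)
  let inV : Submodule ℝ (V i) :=
    { carrier := {v | ∀ u, rankOne v u ∈ N}
      add_mem' := fun {x y} hx hy u => by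
        have : rankOne (x + y) u = rankOne x u + rankOne y u := by
          ext1 v; simp [rankOne_apply, inner_add_left, add_smul]
        rw [this]; exact N.add_mem (hx u) (hy u)
      zero_mem' := fun u => by
        have : rankOne (0 : V i) u = (0 : Op i j) := by ext1 v; simp [rankOne_apply]
        rw [this]; exact N.zero_mem
      smul_mem' := fun c {x} hx u => by
        have : rankOne (c • x) u = c • rankOne x u := by
          ext1 v; simp [rankOne_apply, _root_.inner_smul_left, smul_smul]
        rw [this]; exact N.smul_mem c (hx u) }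
  have h2 : inV = ⊤ := by
    refine cyclic_top H inV (fun k v hv u => ?_) ?_
    · have : rankOne (H.EL i k v) u = -((rankOne v u).comp (H.EL i k)) := by
        ext1 x; simp [rankOne_apply, H.skew_left]
      rw [this]; exact N.neg_mem (hr k _ (hv u))
    · intro u
      have : u ∈ inU := h1 ▸ Submodule.mem_top
      exact this
  refine eq_top_iff.2 fun A _ => ?_
  rw [eq_sum_rankOne A]
  exact N.sum_mem fun a _ => (show EuclideanSpace.single a (1 : ℝ) ∈ inV from h2 ▸ Submodule.mem_top) _

/-- The matrix of a map. -/
def opMat {i j : ℕ} : Op i j →ₗ[ℝ] Matrix (Fin ((j + 1) ^ 2)) (Fin ((i + 1) ^ 2)) ℝ where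
  toFun A := Matrix.of fun a b => A (EuclideanSpace.single b 1) a
  map_add' A B := by ext a b; simp
  map_smul' c A := by ext a b; simp

theorem opMat_apply {i j : ℕ} (A : Op i j) (a : Fin ((j + 1) ^ 2)) (b : Fin ((i + 1) ^ 2)) :
    opMat A a b = A (EuclideanSpace.single b 1) a := rfl

theorem opMat_mulVec {i j : ℕ} (A : Op i j) (v : V i) : opMat A *ᵥ v.ofLp = (A v).ofLp := by
  funext a
  have : v = ∑ b, v b • EuclideanSpace.single b (1 : ℝ) := by
    ext c; simp [Pi.single_apply]
  conv_rhs => rw [this]
  simp [map_sum, Matrix.mulVec, dotProduct, opMat_apply, mul_comm]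

theorem opMat_injective {i j : ℕ} : Function.Injective (opMat (i := i) (j := j)) := fun A B h => by
  refine ContinuousLinearMap.ext fun v => WithLp.ofLp_injective (p := 2) ?_
  rw [← opMat_mulVec, ← opMat_mulVec, h]

theorem opMat_comp {i j l : ℕ} (A : Op j l) (B : Op i j) : opMat (A.comp B) = opMat A * opMat B := by
  ext a b
  rw [opMat_apply, ContinuousLinearMap.comp_apply, Matrix.mul_apply]
  have := congrFun (opMat_mulVec A (B (EuclideanSpace.single b 1))) a
  rw [← this]
  rfl

theorem opMat_id (j : ℕ) : opMat (ContinuousLinearMap.id ℝ (V j)) = 1 := by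
  ext a b
  simp [opMat_apply, Matrix.one_apply, EuclideanSpace.single_apply]

theorem opMat_one (j : ℕ) : opMat (1 : Op j j) = 1 := opMat_id j

theorem trace_opMat {j : ℕ} (A : Op j j) : (opMat A).trace = opTrace A := by
  simp [Matrix.trace, opTrace, opMat_apply, inner_single]

theorem frob_eq_trace {i j : ℕ} (A B : Op i j) : frob A B = ((opMat A)ᵀ * opMat B).trace := by
  simp only [frob, Matrix.trace, Matrix.diag, Matrix.mul_apply, Matrix.transpose_apply, opMat_apply,
    PiLp.inner_apply, RCLike.inner_apply, conj_trivial]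
  exact Finset.sum_congr rfl fun a _ => Finset.sum_congr rfl fun b _ => mul_comm _ _

theorem opMat_EL_transpose (j : ℕ) (k : Fin 3) : (opMat (H.EL j k))ᵀ = -opMat (H.EL j k) := by
  ext a b
  simp only [Matrix.transpose_apply, Matrix.neg_apply, opMat_apply]
  rw [← inner_single (H.EL j k (EuclideanSpace.single a 1)) b,
    ← inner_single (H.EL j k (EuclideanSpace.single b 1)) a, real_inner_comm, H.skew_left]

/-- The `su(2)` data of the left fields of one degree. -/
def leftSU2 (j : ℕ) : SU2 (Fin ((j + 1) ^ 2)) j where
  E k := opMat (H.EL j k)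
  skew := opMat_EL_transpose H j
  rel k := by
    rw [← opMat_comp, ← opMat_comp, ← map_sub, ← map_smul]
    exact congrArg opMat (ContinuousLinearMap.ext fun v => by simpa using H.rel_left j k v)
  cas := by
    rw [← opMat_one, ← map_smul]
    simp only [← opMat_comp, ← map_sum]
    exact congrArg opMat (ContinuousLinearMap.ext fun v => by
      simpa [ContinuousLinearMap.sum_apply] using H.casimir_left j v)

/-- The real algebra of matrices comes from the left algebra. -/
theorem exists_mem_leftAlg {j : ℕ} {P : Matrix (Fin ((j + 1) ^ 2)) (Fin ((j + 1) ^ 2)) ℝ}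
    (hP : P ∈ (leftSU2 H j).ralg) : ∃ A ∈ leftAlg H j, opMat A = P := by
  induction hP using Algebra.adjoin_induction with
  | mem x hx => obtain ⟨k, rfl⟩ := hx; exact ⟨H.EL j k, EL_mem H j k, rfl⟩
  | algebraMap c =>
    exact ⟨c • 1, (leftAlg H j).smul_mem (one_mem _) _, by
      rw [map_smul, opMat_one, Algebra.algebraMap_eq_smul_one]⟩
  | add x y _ _ hx hy =>
    obtain ⟨A, hA, rfl⟩ := hx
    obtain ⟨B, hB, rfl⟩ := hy
    exact ⟨A + B, add_mem hA hB, map_add _ _ _⟩
  | mul x y _ _ hx hy =>
    obtain ⟨A, hA, rfl⟩ := hx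
    obtain ⟨B, hB, rfl⟩ := hy
    exact ⟨A * B, mul_mem hA hB, opMat_comp A B⟩

end

end Vale.Agent.P225.Control
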