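import Mathlib

/-!
P225, control: matrix units in the algebra generated by three skew matrices with the relations
of `su(2)` and a scalar Casimir `-j(j+2)`.
-/

namespace Vale.Agent.P225.Control

open Matrix Polynomial
open scoped ComplexOrder

noncomputable section

variable {ι : Type*} [Fintype ι] [DecidableEq ι]

/-- The complexification of a real matrix. -/
def cmat (A : Matrix ι ι ℝ) : Matrix ι ι ℂ := A.map Complex.ofRealHom

theorem cmat_mul (A B : Matrix ι ι ℝ) : cmat (A * B) = cmat A * cmat B := Matrix.map_mul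

theorem cmat_add (A B : Matrix ι ι ℝ) : cmat (A + B) = cmat A + cmat B :=
  Matrix.map_add _ (map_add _) A B

theorem cmat_sub (A B : Matrix ι ι ℝ) : cmat (A - B) = cmat A - cmat B :=
  Matrix.map_sub _ (map_sub _) A B

theorem cmat_one : cmat (1 : Matrix ι ι ℝ) = 1 := Matrix.map_one _ (map_zero _) (map_one _)

theorem cmat_smul (c : ℝ) (A : Matrix ι ι ℝ) : cmat (c • A) = (c : ℂ) • cmat A := by
  ext i k; simp [cmat]

theorem cmat_sum {α : Type*} (s : Finset α) (A : α → Matrix ι ι ℝ) :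
    cmat (∑ a ∈ s, A a) = ∑ a ∈ s, cmat (A a) :=
  map_sum (Complex.ofRealHom.mapMatrix : Matrix ι ι ℝ →+* Matrix ι ι ℂ) A s

/-- A representation of `su(2)` by real skew matrices, with Casimir `-j(j+2)`. -/
structure SU2 (ι : Type*) [Fintype ι] [DecidableEq ι] (j : ℕ) where
  /-- The three fields. -/
  E : Fin 3 → Matrix ι ι ℝ
  skew : ∀ k, (E k)ᵀ = -E k
  rel : ∀ k : Fin 3, E k * E (k + 1) - E (k + 1) * E k = (-2 : ℝ) • E (k + 2)
  cas : ∑ k, E k * E k = (-((j : ℝ) * (j + 2))) • 1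

namespace SU2

variable {j : ℕ} (S : SU2 ι j)

/-- The complex fields. -/
def cE (k : Fin 3) : Matrix ι ι ℂ := cmat (S.E k)

/-- The weight operator. -/
def wh : Matrix ι ι ℂ := Complex.I • S.cE 0

/-- The lowering operator. -/
def lo : Matrix ι ι ℂ := S.cE 1 + Complex.I • S.cE 2

/-- The raising operator. -/
def hi : Matrix ι ι ℂ := S.cE 1 - Complex.I • S.cE 2

theorem rel012 : (S.cE 0 * S.cE 1 - S.cE 1 * S.cE 0 = (-2 : ℂ) • S.cE 2) ∧
    (S.cE 1 * S.cE 2 - S.cE 2 * S.cE 1 = (-2 : ℂ) • S.cE 0) ∧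
    (S.cE 2 * S.cE 0 - S.cE 0 * S.cE 2 = (-2 : ℂ) • S.cE 1) := by
  have h0 := congrArg cmat (S.rel 0)
  have h1 := congrArg cmat (S.rel 1)
  have h2 := congrArg cmat (S.rel 2)
  simp only [cmat_sub, cmat_mul, cmat_smul, Complex.ofReal_neg, Complex.ofReal_ofNat] at h0 h1 h2
  exact ⟨h0, h1, h2⟩

theorem cas_complex : S.cE 0 * S.cE 0 + S.cE 1 * S.cE 1 + S.cE 2 * S.cE 2 =
    (-((j : ℂ) * (j + 2))) • (1 : Matrix ι ι ℂ) := by
  have h := congrArg cmat S.cas
  rw [Fin.sum_univ_three, cmat_add, cmat_add, cmat_mul, cmat_mul, cmat_mul, cmat_smul, cmat_one] at h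
  simpa [cE] using h

theorem cE_conjTranspose (k : Fin 3) : (S.cE k)ᴴ = -S.cE k := by
  ext a b
  have := congrFun₂ (S.skew k) a b
  simp only [Matrix.transpose_apply, Matrix.neg_apply] at this
  simp [cE, cmat, Matrix.conjTranspose_apply, this]

theorem wh_hermitian : S.wh.IsHermitian := by
  simp [Matrix.IsHermitian, wh, Matrix.conjTranspose_smul, cE_conjTranspose]

theorem lo_conjTranspose : S.loᴴ = -S.hi := by
  simp [lo, hi, Matrix.conjTranspose_add, Matrix.conjTranspose_smul, cE_conjTranspose]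
  abel

theorem hi_conjTranspose : S.hiᴴ = -S.lo := by
  simp [lo, hi, Matrix.conjTranspose_sub, Matrix.conjTranspose_smul, cE_conjTranspose]
  abel

theorem wh_lo : S.wh * S.lo = S.lo * S.wh - (2 : ℂ) • S.lo := by
  obtain ⟨h01, -, h20⟩ := S.rel012
  rw [sub_eq_iff_eq_add] at h01 h20
  simp only [wh, lo, mul_add, add_mul, smul_mul_assoc, mul_smul_comm, smul_smul, Complex.I_mul_I,
    h01, h20, smul_add]
  match_scalars <;> ring_nf <;> simp only [Complex.I_sq] <;> ring

theorem wh_hi : S.wh * S.hi = S.hi * S.wh + (2 : ℂ) • S.hi := by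
  obtain ⟨h01, -, h20⟩ := S.rel012
  rw [sub_eq_iff_eq_add] at h01 h20
  simp only [wh, hi, mul_sub, sub_mul, smul_mul_assoc, mul_smul_comm, smul_smul, Complex.I_mul_I,
    h01, h20, smul_add, smul_sub]
  match_scalars <;> ring_nf <;> simp only [Complex.I_sq] <;> ring

theorem hi_lo : S.hi * S.lo =
    S.wh * S.wh - (2 : ℂ) • S.wh - ((j : ℂ) * (j + 2)) • (1 : Matrix ι ι ℂ) := by
  obtain ⟨-, h12, -⟩ := S.rel012
  have hc := S.cas_complex
  rw [sub_eq_iff_eq_add] at h12
  rw [add_assoc, ← eq_sub_iff_add_eq'] at hc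
  have e : S.cE 2 * S.cE 2 = (-((j : ℂ) * (j + 2))) • (1 : Matrix ι ι ℂ) - S.cE 0 * S.cE 0 -
      S.cE 1 * S.cE 1 := by rw [← hc]; abel
  simp only [wh, lo, hi, sub_mul, mul_add, smul_mul_assoc, mul_smul_comm, smul_smul,
    Complex.I_mul_I, h12, e, smul_add, smul_sub]
  match_scalars <;> ring_nf <;> simp only [Complex.I_sq] <;> ring

theorem lo_hi : S.lo * S.hi =
    S.wh * S.wh + (2 : ℂ) • S.wh - ((j : ℂ) * (j + 2)) • (1 : Matrix ι ι ℂ) := by
  obtain ⟨-, h12, -⟩ := S.rel012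
  have hc := S.cas_complex
  rw [sub_eq_iff_eq_add] at h12
  rw [add_assoc, ← eq_sub_iff_add_eq'] at hc
  have e : S.cE 2 * S.cE 2 = (-((j : ℂ) * (j + 2))) • (1 : Matrix ι ι ℂ) - S.cE 0 * S.cE 0 -
      S.cE 1 * S.cE 1 := by rw [← hc]; abel
  simp only [wh, lo, hi, mul_sub, add_mul, smul_mul_assoc, mul_smul_comm, smul_smul,
    Complex.I_mul_I, h12, e, smul_add, smul_sub]
  match_scalars <;> ring_nf <;> simp only [Complex.I_sq] <;> ring

variable {S}

theorem hi_mul_eigen {v : ι → ℂ} {l : ℂ} (hv : S.wh *ᵥ v = l • v) :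
    S.wh *ᵥ (S.hi *ᵥ v) = (l + 2) • (S.hi *ᵥ v) := by
  rw [mulVec_mulVec, S.wh_hi, add_mulVec, ← mulVec_mulVec, hv, mulVec_smul, smul_mulVec, add_smul]

theorem lo_mul_eigen {v : ι → ℂ} {l : ℂ} (hv : S.wh *ᵥ v = l • v) :
    S.wh *ᵥ (S.lo *ᵥ v) = (l - 2) • (S.lo *ᵥ v) := by
  rw [mulVec_mulVec, S.wh_lo, sub_mulVec, ← mulVec_mulVec, hv, mulVec_smul, smul_mulVec, sub_smul]

theorem norm_hi {v : ι → ℂ} {l : ℝ} (hv : S.wh *ᵥ v = (l : ℂ) • v) :
    star (S.hi *ᵥ v) ⬝ᵥ (S.hi *ᵥ v) =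
      (((j : ℝ) - l) * (j + l + 2) : ℝ) * (star v ⬝ᵥ v) := by
  rw [star_mulVec, ← dotProduct_mulVec, mulVec_mulVec, S.hi_conjTranspose, neg_mul, S.lo_hi]
  simp only [neg_mulVec, sub_mulVec, add_mulVec, smul_mulVec, one_mulVec, ← mulVec_mulVec, hv,
    mulVec_smul, smul_smul]
  simp only [dotProduct_neg, dotProduct_sub, dotProduct_add, dotProduct_smul, smul_eq_mul]
  push_cast
  ring

theorem norm_lo {v : ι → ℂ} {l : ℝ} (hv : S.wh *ᵥ v = (l : ℂ) • v) :
    star (S.lo *ᵥ v) ⬝ᵥ (S.lo *ᵥ v) =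
      (((j : ℝ) + l) * (j - l + 2) : ℝ) * (star v ⬝ᵥ v) := by
  rw [star_mulVec, ← dotProduct_mulVec, mulVec_mulVec, S.lo_conjTranspose, neg_mul, S.hi_lo]
  simp only [neg_mulVec, sub_mulVec, smul_mulVec, one_mulVec, ← mulVec_mulVec, hv, mulVec_smul,
    smul_smul]
  simp only [dotProduct_neg, dotProduct_sub, dotProduct_smul, smul_eq_mul]
  push_cast
  ring

theorem eigen_bounds {v : ι → ℂ} {l : ℝ} (hv : S.wh *ᵥ v = (l : ℂ) • v) (hne : v ≠ 0) :
    -(j : ℝ) ≤ l ∧ l ≤ j := by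
  have hp : 0 < star v ⬝ᵥ v := dotProduct_star_self_pos_iff.2 hne
  have h1 : 0 ≤ star (S.hi *ᵥ v) ⬝ᵥ (S.hi *ᵥ v) := dotProduct_star_self_nonneg _
  have h2 : 0 ≤ star (S.lo *ᵥ v) ⬝ᵥ (S.lo *ᵥ v) := dotProduct_star_self_nonneg _
  rw [norm_hi hv, Complex.le_def] at h1
  rw [norm_lo hv, Complex.le_def] at h2
  rw [Complex.lt_def] at hp
  simp only [Complex.zero_re, Complex.zero_im, Complex.re_ofReal_mul] at h1 h2 hp
  have a := nonneg_of_mul_nonneg_left h1.1 hp.1
  have b := nonneg_of_mul_nonneg_left h2.1 hp.1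
  constructor
  · by_contra h; nlinarith
  · by_contra h; nlinarith

theorem hi_pow_eigen {v : ι → ℂ} {l : ℝ} (hv : S.wh *ᵥ v = (l : ℂ) • v) (n : ℕ) :
    S.wh *ᵥ (S.hi ^ n *ᵥ v) = ((l + 2 * n : ℝ) : ℂ) • (S.hi ^ n *ᵥ v) := by
  induction n with
  | zero => simpa using hv
  | succ n ih =>
    rw [pow_succ', ← mulVec_mulVec, hi_mul_eigen ih]
    push_cast; congr 1; ring

theorem hi_pow_eq_zero {v : ι → ℂ} {l : ℝ} (hv : S.wh *ᵥ v = (l : ℂ) • v) {n : ℕ}
    (h : (j : ℝ) < l + 2 * n) : S.hi ^ n *ᵥ v = 0 := by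
  by_contra hne
  have := (eigen_bounds (hi_pow_eigen hv n) hne).2
  linarith

theorem eigen_values {v : ι → ℂ} {l : ℝ} (hv : S.wh *ᵥ v = (l : ℂ) • v) (hne : v ≠ 0) :
    ∃ m : ℕ, m ≤ j ∧ l = j - 2 * m := by
  classical
  obtain ⟨hlo, -⟩ := eigen_bounds hv hne
  have hex : ∃ n, S.hi ^ n *ᵥ v = 0 := ⟨j + 1, hi_pow_eq_zero hv (by push_cast; linarith)⟩
  obtain ⟨n, hn, hmin⟩ : ∃ n, S.hi ^ n *ᵥ v = 0 ∧ ∀ m < n, S.hi ^ m *ᵥ v ≠ 0 :=
    ⟨Nat.find hex, Nat.find_spec hex, fun m hm => Nat.find_min hex hm⟩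
  rcases n with _ | m
  · simp at hn; exact absurd hn hne
  · set w := S.hi ^ m *ᵥ v with hw
    have hw0 : w ≠ 0 := hmin m (Nat.lt_succ_self m)
    have he := hi_pow_eigen hv m
    rw [← hw] at he
    have h0 : S.hi *ᵥ w = 0 := by rw [hw, mulVec_mulVec, ← pow_succ']; exact hn
    have := norm_hi he
    rw [h0, dotProduct_zero, eq_comm, mul_eq_zero, Complex.ofReal_eq_zero, mul_eq_zero] at this
    obtain ⟨hb1, hb2⟩ := eigen_bounds he hw0
    rcases this with (h | h) | h
    · refine ⟨m, ?_, by linarith⟩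
      have : (m : ℝ) ≤ j := by linarith
      exact_mod_cast this
    · linarith
    · exact absurd (dotProduct_star_self_eq_zero.1 h) hw0

theorem eq_zero_of_eigenbasis {A : Matrix ι ι ℂ}
    (h : ∀ v : ι → ℂ, ∀ l : ℝ, S.wh *ᵥ v = (l : ℂ) • v → A *ᵥ v = 0) : A = 0 := by
  have hh := S.wh_hermitian
  have hb : Matrix.toEuclideanLin A = 0 := by
    refine hh.eigenvectorBasis.toBasis.ext fun i => ?_
    simp only [OrthonormalBasis.coe_toBasis, LinearMap.zero_apply]
    apply (WithLp.ofLp_injective (p := 2))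
    simp only [Matrix.ofLp_toEuclideanLin_apply, WithLp.ofLp_zero]
    refine h _ (hh.eigenvalues i) ?_
    have := hh.mulVec_eigenvectorBasis i
    rw [this]
    ext a; simp [Complex.real_smul]
  simpa using hb

variable (S)

theorem hi_pow_succ_eq_zero : S.hi ^ (j + 1) = 0 := by
  refine eq_zero_of_eigenbasis (S := S) fun v l hv => ?_
  by_cases hne : v = 0
  · simp [hne]
  · exact hi_pow_eq_zero hv (by push_cast; linarith [(eigen_bounds hv hne).1])

omit [Fintype ι] in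
theorem aeval_mul_eigen {h W : Matrix ι ι ℂ} [Fintype ι] {l : ℂ} (hW : h * W = l • W) (q : ℂ[X]) :
    aeval h q * W = q.eval l • W := by
  induction q using Polynomial.induction_on' with
  | add p q hp hq => simp [add_mul, hp, hq, add_smul]
  | monomial n a =>
    have hn : h ^ n * W = l ^ n • W := by
      induction n with
      | zero => simp
      | succ n ih => rw [pow_succ, mul_assoc, hW, mul_smul_comm, ih, smul_smul, ← pow_succ']
    rw [aeval_monomial, ← Algebra.smul_def, smul_mul_assoc, hn, smul_smul, eval_monomial]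

/-- The Lagrange polynomial of the top weight. -/
def topPoly (j : ℕ) : ℂ[X] :=
  Polynomial.C (∏ m ∈ Finset.range j, (2 * ((m : ℂ) + 1)))⁻¹ *
    ∏ m ∈ Finset.range j, (X - Polynomial.C ((j : ℂ) - 2 * ((m : ℂ) + 1)))

/-- The projection to the top weight. -/
def top : Matrix ι ι ℂ := aeval S.wh (topPoly j)

theorem top_eigen {W : Matrix ι ι ℂ} (hW : S.wh * W = (j : ℂ) • W) : S.top * W = W := by
  rw [top, aeval_mul_eigen hW]
  have : (∏ m ∈ Finset.range j, (2 * ((m : ℂ) + 1))) ≠ 0 :=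
    Finset.prod_ne_zero_iff.2 fun m _ => mul_ne_zero two_ne_zero (Nat.cast_add_one_ne_zero m)
  rw [topPoly, eval_mul, eval_C, eval_prod]
  simp only [eval_sub, eval_X, eval_C, sub_sub_cancel]
  rw [inv_mul_cancel₀ this, one_smul]

theorem wh_top : S.wh * S.top = (j : ℂ) • S.top := by
  rw [← sub_eq_zero]
  have e : S.wh * S.top - (j : ℂ) • S.top = aeval S.wh ((X - Polynomial.C (j : ℂ)) * topPoly j) := by
    rw [top, map_mul, map_sub, aeval_X, aeval_C, sub_mul, ← Algebra.smul_def]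
  rw [e]
  refine eq_zero_of_eigenbasis (S := S) fun v l hv => ?_
  by_cases hne : v = 0
  · simp [hne]
  obtain ⟨m, hm, rfl⟩ := eigen_values hv hne
  have hW : S.wh * Matrix.of (fun a (_ : ι) => v a) =
      ((j - 2 * m : ℝ) : ℂ) • Matrix.of (fun a (_ : ι) => v a) := by
    ext a b; exact congrFun hv a
  have h0 : ((X - Polynomial.C (j : ℂ)) * topPoly j).eval ((j - 2 * m : ℝ) : ℂ) = 0 := by
    rw [topPoly, eval_mul, eval_mul, eval_prod]
    rcases m with _ | m
    · simp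
    · have hz : (∏ i ∈ Finset.range j, eval ((j - 2 * ((m + 1 : ℕ) : ℝ) : ℝ) : ℂ)
          (X - Polynomial.C ((j : ℂ) - 2 * ((i : ℂ) + 1)))) = 0 :=
        Finset.prod_eq_zero (Finset.mem_range.2 (by omega : m < j)) (by simp)
      rw [hz, mul_zero, mul_zero]
  have := aeval_mul_eigen hW ((X - Polynomial.C (j : ℂ)) * topPoly j)
  rw [h0, zero_smul] at this
  funext a
  exact congrFun₂ this a a

theorem top_wh : S.top * S.wh = (j : ℂ) • S.top := by
  rw [← S.wh_top, top]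
  calc aeval S.wh (topPoly j) * S.wh = aeval S.wh (topPoly j * X) := by rw [map_mul, aeval_X]
    _ = aeval S.wh (X * topPoly j) := by rw [mul_comm]
    _ = S.wh * aeval S.wh (topPoly j) := by rw [map_mul, aeval_X]

theorem top_idem : S.top * S.top = S.top := S.top_eigen S.wh_top

theorem hi_top : S.hi * S.top = 0 := by
  have h : S.lo * (S.hi * S.top) = 0 := by
    rw [← mul_assoc, S.lo_hi, sub_mul, add_mul, mul_assoc, S.wh_top, mul_smul_comm, S.wh_top,
      smul_mul_assoc, S.wh_top, smul_mul_assoc, one_mul, smul_smul, smul_smul, ← add_smul, ← sub_smul]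
    rw [show (j : ℂ) * j + 2 * j - j * (j + 2) = 0 by ring, zero_smul]
  have h2 : (S.hi * S.top)ᴴ * (S.hi * S.top) = 0 := by
    rw [Matrix.conjTranspose_mul, S.hi_conjTranspose, mul_assoc, neg_mul, h, neg_zero, mul_zero]
  exact Matrix.conjTranspose_mul_self_eq_zero.1 h2

theorem wh_lo_pow_top (m : ℕ) :
    S.wh * (S.lo ^ m * S.top) = ((j : ℂ) - 2 * m) • (S.lo ^ m * S.top) := by
  induction m with
  | zero => simpa using S.wh_top
  | succ m ih =>
    rw [pow_succ', mul_assoc, ← mul_assoc S.wh, S.wh_lo, sub_mul, mul_assoc, ih, mul_smul_comm,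
      smul_mul_assoc, ← sub_smul]
    push_cast; congr 1; ring

theorem hi_lo_pow_top (m : ℕ) :
    S.hi * (S.lo ^ (m + 1) * S.top) = (-4 * ((m : ℂ) + 1) * ((j : ℂ) - m)) • (S.lo ^ m * S.top) := by
  rw [pow_succ', mul_assoc, ← mul_assoc S.hi, S.hi_lo, sub_mul, sub_mul, mul_assoc, S.wh_lo_pow_top,
    mul_smul_comm, S.wh_lo_pow_top, smul_mul_assoc, S.wh_lo_pow_top, smul_mul_assoc, one_mul,
    smul_smul, smul_smul, ← sub_smul, ← sub_smul]
  congr 1; ring

/-- The normalising constant. -/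
def kappa (j n : ℕ) : ℂ := ∏ i ∈ Finset.range n, (-4 * ((i : ℂ) + 1) * ((j : ℂ) - i))

theorem kappa_ne_zero {n : ℕ} (hn : n ≤ j) : kappa j n ≠ 0 := by
  refine Finset.prod_ne_zero_iff.2 fun i hi => ?_
  rw [Finset.mem_range] at hi
  refine mul_ne_zero (mul_ne_zero (by norm_num) (Nat.cast_add_one_ne_zero i)) (sub_ne_zero.2 ?_)
  exact_mod_cast (by omega : j ≠ i)

theorem hi_pow_lo_pow (n : ℕ) : ∀ p : ℕ, n ≤ p →
    S.hi ^ n * (S.lo ^ p * S.top) =
      (∏ i ∈ Finset.Ico (p - n) p, (-4 * ((i : ℂ) + 1) * ((j : ℂ) - i))) • (S.lo ^ (p - n) * S.top) := by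
  induction n with
  | zero => intro p _; simp
  | succ n ih =>
    intro p hp
    rw [pow_succ', mul_assoc, ih p (by omega), mul_smul_comm]
    obtain ⟨q, hq⟩ : ∃ q, p - n = q + 1 := ⟨p - n - 1, by omega⟩
    rw [hq, S.hi_lo_pow_top, smul_smul, show p - (n + 1) = q by omega,
      Finset.prod_eq_prod_Ico_succ_bot (show q < p by omega), mul_comm]

theorem top_hi_lo_top (n p : ℕ) :
    S.top * S.hi ^ n * (S.lo ^ p * S.top) = if n = p then kappa j n • S.top else 0 := by
  rw [mul_assoc]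
  rcases lt_trichotomy n p with h | rfl | h
  · rw [if_neg h.ne, S.hi_pow_lo_pow n p h.le, mul_smul_comm]
    suffices e : S.top * (S.lo ^ (p - n) * S.top) = 0 by rw [e, smul_zero]
    obtain ⟨q, hq, hq0⟩ : ∃ q, p - n = q ∧ 0 < q := ⟨_, rfl, by omega⟩
    rw [hq]
    have h1 := congrArg (fun W => S.top * W) (S.wh_lo_pow_top q)
    simp only [← mul_assoc, mul_smul_comm] at h1
    rw [S.top_wh, smul_mul_assoc, smul_mul_assoc, mul_assoc, ← sub_eq_zero, ← sub_smul, smul_eq_zero] at h1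
    rcases h1 with h1 | h1
    · exfalso
      have : (q : ℂ) = 0 := by linear_combination (norm := ring_nf) (1 / 2 : ℂ) * h1
      exact hq0.ne' (by exact_mod_cast this)
    · exact h1
  · rw [if_pos rfl, S.hi_pow_lo_pow n n le_rfl, Nat.sub_self, pow_zero, one_mul, mul_smul_comm,
      S.top_idem, kappa, Finset.range_eq_Ico]
  · rw [if_neg h.ne']
    obtain ⟨k, hk⟩ : ∃ k, n = k + (p + 0) ∧ 0 < k := ⟨n - p, by omega, by omega⟩
    rw [hk.1, add_zero, pow_add, mul_assoc, S.hi_pow_lo_pow p p le_rfl, Nat.sub_self, pow_zero, one_mul,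
      mul_smul_comm, mul_smul_comm]
    obtain ⟨k', rfl⟩ : ∃ k', k = k' + 1 := ⟨k - 1, by omega⟩
    rw [pow_succ, mul_assoc, S.hi_top, mul_zero, mul_zero, smul_zero]

/-- The matrix units. -/
def unit (m n : ℕ) : Matrix ι ι ℂ := (kappa j n)⁻¹ • (S.lo ^ m * S.top * S.hi ^ n)

theorem unit_mul {m n p q : ℕ} (hn : n ≤ j) :
    S.unit m n * S.unit p q = if n = p then S.unit m q else 0 := by
  have key : S.lo ^ m * S.top * S.hi ^ n * (S.lo ^ p * S.top * S.hi ^ q) =
      S.lo ^ m * (S.top * S.hi ^ n * (S.lo ^ p * S.top)) * S.hi ^ q := by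
    simp only [mul_assoc]
  rw [unit, unit, smul_mul_assoc, mul_smul_comm, smul_smul, key, S.top_hi_lo_top]
  split_ifs with h
  · subst h
    rw [mul_smul_comm, smul_mul_assoc, smul_smul, unit]
    congr 1
    rw [mul_comm (kappa j n)⁻¹, mul_assoc, inv_mul_cancel₀ (kappa_ne_zero hn), mul_one]
  · simp

theorem sum_unit : ∑ m ∈ Finset.range (j + 1), S.unit m m = 1 := by
  set R := (1 : Matrix ι ι ℂ) - ∑ m ∈ Finset.range (j + 1), S.unit m m with hR
  have hQ : ∀ n ≤ j, S.top * S.hi ^ n * R = 0 := by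
    intro n hn
    rw [hR, mul_sub, mul_one, sub_eq_zero, Finset.mul_sum]
    have : ∀ m, S.top * S.hi ^ n * S.unit m m = if n = m then S.top * S.hi ^ n else 0 := by
      intro m
      have key : S.top * S.hi ^ n * (S.lo ^ m * S.top * S.hi ^ m) =
          S.top * S.hi ^ n * (S.lo ^ m * S.top) * S.hi ^ m := by simp only [mul_assoc]
      rw [unit, mul_smul_comm, key, S.top_hi_lo_top]
      split_ifs with h
      · subst h
        rw [smul_mul_assoc, smul_smul, inv_mul_cancel₀ (kappa_ne_zero hn), one_smul]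
      · simp
    simp only [this, Finset.sum_ite_eq, Finset.mem_range, show n < j + 1 by omega, if_true]
  have hdown : ∀ k n, n + k = j + 1 → S.hi ^ n * R = 0 := by
    intro k
    induction k with
    | zero => intro n hn; rw [show n = j + 1 by omega, S.hi_pow_succ_eq_zero, zero_mul]
    | succ k ih =>
      intro n hn
      set W := S.hi ^ n * R with hW
      have h1 : S.hi * W = 0 := by rw [hW, ← mul_assoc, ← pow_succ']; exact ih _ (by omega)
      have h2 : S.lo * (S.hi * W) = 0 := by rw [h1, mul_zero]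
      rw [← mul_assoc, S.lo_hi] at h2
      set U := S.wh * W - (j : ℂ) • W
      have h3 : S.wh * U = (-((j : ℂ) + 2)) • U := by
        simp only [sub_mul, add_mul, smul_mul_assoc, one_mul] at h2
        have e : S.wh * U - (-((j : ℂ) + 2)) • U =
            S.wh * S.wh * W + (2 : ℂ) • (S.wh * W) - ((j : ℂ) * (j + 2)) • W := by
          simp only [U, mul_sub, mul_smul_comm, ← mul_assoc, smul_sub, smul_smul]
          module
        rw [← sub_eq_zero, e, h2]
      have hU : U = 0 := by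
        by_contra hne
        obtain ⟨b, hb⟩ : ∃ b, (fun a => U a b) ≠ 0 := by
          by_contra hall
          push Not at hall
          exact hne (Matrix.ext fun a b => congrFun (hall b) a)
        have hv : S.wh *ᵥ (fun a => U a b) = ((-((j : ℝ) + 2) : ℝ) : ℂ) • fun a => U a b := by
          funext a
          have := congrFun₂ h3 a b
          simpa [Matrix.mul_apply, Matrix.mulVec, dotProduct] using this
        linarith [(eigen_bounds hv hb).1]
      have h4 : S.top * W = W := S.top_eigen (sub_eq_zero.1 hU)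
      rw [← h4, hW, ← mul_assoc]
      exact hQ n (by omega)
  have := hdown (j + 1) 0 (by omega)
  rw [pow_zero, one_mul, sub_eq_zero] at this
  exact this.symm

/-- The span of the units. -/
def unitSpan : Submodule ℂ (Matrix ι ι ℂ) :=
  Submodule.span ℂ {x | ∃ m ≤ j, ∃ n ≤ j, x = S.unit m n}

theorem unit_mem_unitSpan {m n : ℕ} (hm : m ≤ j) (hn : n ≤ j) : S.unit m n ∈ S.unitSpan :=
  Submodule.subset_span ⟨m, hm, n, hn, rfl⟩

theorem lo_pow_top_eq_zero : S.lo ^ (j + 1) * S.top = 0 := by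
  set W := S.lo ^ (j + 1) * S.top with hW
  have hWe := S.wh_lo_pow_top (j + 1)
  rw [← hW] at hWe
  by_contra hne
  obtain ⟨b, hb⟩ : ∃ b, (fun a => W a b) ≠ 0 := by
    by_contra hall
    push Not at hall
    exact hne (Matrix.ext fun a b => congrFun (hall b) a)
  have hv : S.wh *ᵥ (fun a => W a b) = ((-((j : ℝ) + 2) : ℝ) : ℂ) • fun a => W a b := by
    funext a
    have := congrFun₂ hWe a b
    simp only [Matrix.mul_apply, Matrix.mulVec, dotProduct, Matrix.smul_apply, Pi.smul_apply] at this ⊢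
    rw [this]; push_cast; simp only [smul_eq_mul]; ring
  linarith [(eigen_bounds hv hb).1]

theorem lo_mul_unit {m n : ℕ} (hn : n ≤ j) (hm : m ≤ j) : S.lo * S.unit m n ∈ S.unitSpan := by
  rw [unit, mul_smul_comm, ← mul_assoc, ← mul_assoc, ← pow_succ']
  rcases eq_or_lt_of_le hm with rfl | h
  · rw [S.lo_pow_top_eq_zero, zero_mul, smul_zero]; exact zero_mem _
  · exact S.unit_mem_unitSpan h hn

theorem hi_mul_unit {m n : ℕ} (hn : n ≤ j) (hm : m ≤ j) : S.hi * S.unit m n ∈ S.unitSpan := by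
  rw [unit, mul_smul_comm, ← mul_assoc]
  rcases m with _ | m
  · rw [pow_zero, one_mul, S.hi_top, zero_mul, smul_zero]; exact zero_mem _
  · rw [S.hi_lo_pow_top, smul_mul_assoc, smul_comm]
    exact Submodule.smul_mem _ _ (S.unit_mem_unitSpan (by omega) hn)

theorem wh_mul_unit {m n : ℕ} (hn : n ≤ j) (hm : m ≤ j) : S.wh * S.unit m n ∈ S.unitSpan := by
  rw [unit, mul_smul_comm, ← mul_assoc, S.wh_lo_pow_top, smul_mul_assoc, smul_comm]
  exact Submodule.smul_mem _ _ (S.unit_mem_unitSpan hm hn)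

theorem cE_mul_unitSpan (k : Fin 3) {x : Matrix ι ι ℂ} (hx : x ∈ S.unitSpan) :
    S.cE k * x ∈ S.unitSpan := by
  have e0 : S.cE 0 = (-Complex.I) • S.wh := by simp [wh, smul_smul]
  have e1 : S.cE 1 = (1 / 2 : ℂ) • (S.lo + S.hi) := by
    simp only [lo, hi]; module
  have e2 : S.cE 2 = (-Complex.I / 2) • (S.lo - S.hi) := by
    simp only [lo, hi, smul_sub, smul_add, smul_smul]
    rw [show -Complex.I / 2 * Complex.I = 1 / 2 by
      rw [div_mul_eq_mul_div, neg_mul, Complex.I_mul_I, neg_neg]]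
    module
  induction hx using Submodule.span_induction with
  | mem x hx =>
    obtain ⟨m, hm, n, hn, rfl⟩ := hx
    fin_cases k
    · show S.cE 0 * _ ∈ _
      rw [e0, smul_mul_assoc]; exact Submodule.smul_mem _ _ (S.wh_mul_unit hn hm)
    · show S.cE 1 * _ ∈ _
      rw [e1, smul_mul_assoc, add_mul]
      exact Submodule.smul_mem _ _ (add_mem (S.lo_mul_unit hn hm) (S.hi_mul_unit hn hm))
    · show S.cE 2 * _ ∈ _
      rw [e2, smul_mul_assoc, sub_mul]
      exact Submodule.smul_mem _ _ (sub_mem (S.lo_mul_unit hn hm) (S.hi_mul_unit hn hm))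
  | zero => simp
  | add x y _ _ hx hy => rw [mul_add]; exact add_mem hx hy
  | smul c x _ hx => rw [mul_smul_comm]; exact Submodule.smul_mem _ _ hx

theorem one_mem_unitSpan : (1 : Matrix ι ι ℂ) ∈ S.unitSpan := by
  rw [← S.sum_unit]
  exact sum_mem fun m hm => by
    rw [Finset.mem_range] at hm; exact S.unit_mem_unitSpan (by omega) (by omega)

/-- The complex algebra of the fields. -/
def calg : Subalgebra ℂ (Matrix ι ι ℂ) := Algebra.adjoin ℂ (Set.range S.cE)

theorem unit_mem_calg (m n : ℕ) : S.unit m n ∈ S.calg := by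
  have h0 : ∀ k, S.cE k ∈ S.calg := fun k => Algebra.subset_adjoin ⟨k, rfl⟩
  have hwh : S.wh ∈ S.calg := S.calg.smul_mem (h0 0) _
  have hlo : S.lo ∈ S.calg := add_mem (h0 1) (S.calg.smul_mem (h0 2) _)
  have hhi : S.hi ∈ S.calg := sub_mem (h0 1) (S.calg.smul_mem (h0 2) _)
  have htop : S.top ∈ S.calg :=
    Algebra.adjoin_le (Set.singleton_subset_iff.2 hwh) (Polynomial.aeval_mem_adjoin_singleton ℂ S.wh)
  exact S.calg.smul_mem (mul_mem (mul_mem (pow_mem hlo m) htop) (pow_mem hhi n)) _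

theorem calg_le_unitSpan {x : Matrix ι ι ℂ} (hx : x ∈ S.calg) : x ∈ S.unitSpan := by
  suffices h : ∀ y ∈ S.unitSpan, x * y ∈ S.unitSpan by simpa using h 1 S.one_mem_unitSpan
  induction hx using Algebra.adjoin_induction with
  | mem x hx => obtain ⟨k, rfl⟩ := hx; exact fun y hy => S.cE_mul_unitSpan k hy
  | algebraMap c => intro y hy; rw [← Algebra.smul_def]; exact Submodule.smul_mem _ _ hy
  | add x y _ _ hx hy => intro z hz; rw [add_mul]; exact add_mem (hx z hz) (hy z hz)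
  | mul x y _ _ hx hy => intro z hz; rw [mul_assoc]; exact hx _ (hy z hz)

end SU2

end

end Vale.Agent.P225.Control
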